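import Vale.Agent.P209.Merge
import Vale.Agent.P209.Nec

/-! Strong packing stability of the ball in every dimension: Conjecture A of Siegel and Yao holds
whenever all capacities are small compared with the target. -/

namespace Vale.Agent.Results.P209.Stability

open Vale.Agent.P209

theorem result (n : ℕ) (hn : 1 ≤ n) : ∃ δ : ℝ, 0 < δ ∧ ∀ (k : ℕ) (R : ℝ) (r : Fin k → ℝ), 0 < R →
    (∀ i, 0 < r i) → (∀ i, r i ≤ δ * R) →
    (Packs n r R ↔ ∑ i, r i ^ n < R ^ n ∧ ∀ i j, i < j → r i + r j < R) := by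
  obtain ⟨δ, h0, h1, h⟩ := stable hn
  refine ⟨δ, h0, fun k R r hR hr hδ => ⟨fun hp => ⟨hp.volume_lt hn hr hR, fun i j _ => ?_⟩,
    fun hv => h _ r R hR (fun i => ⟨hr i, hδ i⟩) hv.1⟩⟩
  have := hδ i
  have := hδ j
  nlinarith

end Vale.Agent.Results.P209.Stability
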